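import Mathlib
import Vale.Agent.Lib.P335.helper26.ThreeDefs

/-!
Three-row lemma of P335, antisymmetric part: a function on a three-row margin space that is
antisymmetric under the transposition of two columns with equal column sums satisfies
`∑_p ip F (R p F) ≤ 2 * ip F F`, the sum being over the three pairs of rows.
-/

namespace Vale.Agent.Lib.P335.Bip

open Finset

namespace H3

/-- Antisymmetry under a column transposition is inherited by every resampling `R p F`. -/
theorem R_anti {m n : ℕ} {r : Fin m → ℕ} {c : Fin n → ℕ} (p : Finset (Fin m)) (u u' : Fin n)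
    (h : c u = c u') (F : Om m n r c → ℝ) (hF : ∀ x, F (swapOm u u' h x) = - F x)
    (x : Om m n r c) : R p F (swapOm u u' h x) = - R p F x := by
  have h1 : F ∘ swapOm u u' h = -F := by
    funext y
    simp [hF]
  have h2 := R_swapOm p u u' h F
  rw [h1, map_neg] at h2
  have h3 := congrFun h2 x
  simp only [Pi.neg_apply, Function.comp_apply] at h3
  exact h3.symm

/-- A row that does not separate the two columns is fixed by the column transposition. -/
theorem swapCols_row_eq {m n : ℕ} (u u' : Fin n) (x : Mat m n) (l : Fin m)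
    (hl : u ∈ x l ↔ u' ∈ x l) : swapCols u u' x l = x l := by
  ext j
  rw [mem_swapCols]
  rcases eq_or_ne j u with rfl | hju
  · rw [Equiv.swap_apply_left]
    exact hl.symm
  · rcases eq_or_ne j u' with rfl | hju'
    · rw [Equiv.swap_apply_right]
      exact hl
    · rw [Equiv.swap_apply_of_ne_of_ne hju hju']

/-- If the row `l` does not separate the two columns at `x`, then the matrices `x` and its
column transposition agree after blanking all rows except `l`. -/
theorem mask_erase_swapCols {m n : ℕ} (u u' : Fin n) (x : Mat m n) (l : Fin m)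
    (hl : u ∈ x l ↔ u' ∈ x l) :
    mask (univ.erase l) (swapCols u u' x) = mask (univ.erase l) x := by
  funext i
  unfold mask
  by_cases hi : i ∈ (univ : Finset (Fin m)).erase l
  · rw [if_pos hi, if_pos hi]
  · rw [if_neg hi, if_neg hi]
    have hil : i = l := by
      by_contra hne
      exact hi (Finset.mem_erase.mpr ⟨hne, Finset.mem_univ i⟩)
    subst hil
    exact swapCols_row_eq u u' x i hl

/-- An antisymmetric function has vanishing resampling `R (univ.erase l) F x` at every `x`
whose row `l` does not separate the two columns. -/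
theorem R_erase_eq_zero {m n : ℕ} {r : Fin m → ℕ} {c : Fin n → ℕ} (u u' : Fin n)
    (h : c u = c u') (F : Om m n r c → ℝ) (hF : ∀ x, F (swapOm u u' h x) = - F x)
    (x : Om m n r c) (l : Fin m) (hl : u ∈ x.1 l ↔ u' ∈ x.1 l) :
    R (univ.erase l) F x = 0 := by
  have h1 := R_anti (univ.erase l) u u' h F hF x
  have h2 : R (univ.erase l) F (swapOm u u' h x) = R (univ.erase l) F x := by
    unfold R
    apply cexp_congr
    rw [swapOm_val]
    exact mask_erase_swapCols u u' x.1 l hl
  rw [h2] at h1
  linarith

/-- Two columns with equal column sums of a three-row matrix are not separated by all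
three rows. -/
theorem exists_row_not_sep {n : ℕ} {r : Fin 3 → ℕ} {c : Fin n → ℕ} (u u' : Fin n)
    (h : c u = c u') (x : Om 3 n r c) : ∃ l : Fin 3, (u ∈ x.1 l ↔ u' ∈ x.1 l) := by
  by_contra hcon
  push Not at hcon
  have hu := x.2.2 u
  have hu' := x.2.2 u'
  unfold colSum at hu hu'
  have hfil : (univ.filter (fun i : Fin 3 => u' ∈ x.1 i))
      = univ.filter (fun i : Fin 3 => ¬ u ∈ x.1 i) := by
    ext i
    simp only [Finset.mem_filter, Finset.mem_univ, true_and]
    have := hcon i
    tauto
  have hsum := Finset.card_filter_add_card_filter_not (s := (univ : Finset (Fin 3)))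
    (fun i : Fin 3 => u ∈ x.1 i)
  rw [← hfil, hu, hu', Finset.card_univ, Fintype.card_fin] at hsum
  omega

/-- The pairs of rows of a three-row system are the complements of the single rows. -/
theorem sum_powersetCard_two_three {M : Type*} [AddCommMonoid M] (f : Finset (Fin 3) → M) :
    ∑ p ∈ (univ : Finset (Fin 3)).powersetCard 2, f p = ∑ l : Fin 3, f (univ.erase l) := by
  have hset : (univ : Finset (Fin 3)).powersetCard 2
      = (univ : Finset (Fin 3)).image (fun l => (univ : Finset (Fin 3)).erase l) := by
    decide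
  rw [hset, Finset.sum_image]
  intro a _ b _ hab
  revert a b
  decide

end H3

open H3 in
theorem threeRow_anti {n : ℕ} {r : Fin 3 → ℕ} {c : Fin n → ℕ} (u u' : Fin n) (h : c u = c u')
    (F : Om 3 n r c → ℝ) (hF : ∀ x, F (swapOm u u' h x) = - F x) :
    ∑ p ∈ (univ : Finset (Fin 3)).powersetCard 2, ip F (R p F) ≤ 2 * ip F F := by
  rw [sum_powersetCard_two_three]
  set g : Fin 3 → Om 3 n r c → ℝ := fun l => R (univ.erase l) F with hg
  set G : Om 3 n r c → ℝ := ∑ l : Fin 3, g l with hG
  set S : ℝ := ∑ l : Fin 3, ip F (g l) with hS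
  have hSG : ip F G = S := by
    rw [hG, ip_sum_right]
  have hS2 : S = ∑ l : Fin 3, ip (g l) (g l) := by
    rw [hS]
    refine Finset.sum_congr rfl (fun l _ => ?_)
    exact ip_cexp_self _ F
  have hS0 : 0 ≤ S := by
    rw [hS2]
    exact Finset.sum_nonneg (fun l _ => ip_self_nonneg _)
  have hpt : ∀ x : Om 3 n r c, G x ^ 2 ≤ 2 * ∑ l : Fin 3, g l x ^ 2 := by
    intro x
    obtain ⟨l, hl⟩ := exists_row_not_sep u u' h x
    have hz : g l x = 0 := R_erase_eq_zero u u' h F hF x l hl
    have hGx : G x = g 0 x + g 1 x + g 2 x := by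
      rw [hG, Finset.sum_apply, Fin.sum_univ_three]
    rw [hGx, Fin.sum_univ_three]
    fin_cases l
    · have hz' : g 0 x = 0 := hz
      rw [hz']
      nlinarith [sq_nonneg (g 1 x - g 2 x)]
    · have hz' : g 1 x = 0 := hz
      rw [hz']
      nlinarith [sq_nonneg (g 0 x - g 2 x)]
    · have hz' : g 2 x = 0 := hz
      rw [hz']
      nlinarith [sq_nonneg (g 0 x - g 1 x)]
  have hGG : ip G G ≤ 2 * S := by
    rw [ip_eq_sum_sq, hS2]
    have h1 : ∑ l : Fin 3, ip (g l) (g l) = ∑ x : Om 3 n r c, ∑ l : Fin 3, g l x ^ 2 := by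
      rw [Finset.sum_comm]
      refine Finset.sum_congr rfl (fun l _ => ?_)
      exact ip_eq_sum_sq _
    rw [h1, Finset.mul_sum]
    exact Finset.sum_le_sum (fun x _ => hpt x)
  have hCS := ip_cauchy_schwarz F G
  rw [hSG] at hCS
  have hFF := ip_self_nonneg F
  by_contra hcon
  push Not at hcon
  have hSpos : 0 < S := lt_of_le_of_lt (by positivity) hcon
  have h1 : S ^ 2 ≤ ip F F * (2 * S) := le_trans hCS (mul_le_mul_of_nonneg_left hGG hFF)
  nlinarith

end Vale.Agent.Lib.P335.Bip
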